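import Vale.Agent.P011Z.Cl.Cub

/-!
Transvections of the Albert algebra.
-/

open Matrix Module

noncomputable section

namespace Vale.Agent.P011Z.Cl.Frmx

open Vale.Agent.P011.D4 Vale.Agent.P011.D4.Oct Vale.Agent.P011.E6 Vale.Agent.P011.E6.Alb

theorem dg_add (x y : J) (i : Fin 3) : dg (x + y) i = dg x i + dg y i := by
  rw [dg_lin.map_add, Pi.add_apply]

theorem sl_add (x y : J) (i : Fin 3) : sl (x + y) i = sl x i + sl y i := by
  rw [sl_lin.map_add, Pi.add_apply]

theorem dg_smul (t : Om) (x : J) (i : Fin 3) : dg (t • x) i = t * dg x i := by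
  rw [dg_lin.map_smul, Pi.smul_apply, smul_eq_mul]

theorem sl_smul (t : Om) (x : J) (i : Fin 3) : sl (t • x) i = t • sl x i := by
  rw [sl_lin.map_smul, Pi.smul_apply]

theorem dg_zero (i : Fin 3) : dg (0 : J) i = 0 := by
  rw [dg_lin.map_zero, Pi.zero_apply]

theorem sl_zero (i : Fin 3) : sl (0 : J) i = 0 := by
  rw [sl_lin.map_zero, Pi.zero_apply]

theorem dg_ee (i j : Fin 3) : dg (ee i) j = if j = i then 1 else 0 := by
  rw [ee, dg_jm, Pi.single_apply]

theorem sl_ee (i j : Fin 3) : sl (ee i) j = 0 := by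
  rw [ee, sl_jm, Pi.zero_apply]

theorem tf_ee (x : J) (i : Fin 3) : tf x (ee i) = dg x i := by
  rw [tf_eq]
  simp [dg_ee, sl_ee]

theorem n1 (i : Fin 3) : i + 1 ≠ i := by revert i; decide

theorem n2 (i : Fin 3) : i + 2 ≠ i := by revert i; decide

theorem n21 (i : Fin 3) : i + 2 ≠ i + 1 := by revert i; decide

theorem a11 (i : Fin 3) : i + 1 + 1 = i + 2 := by revert i; decide

theorem a12 (i : Fin 3) : i + 1 + 2 = i := by revert i; decide

theorem a21 (i : Fin 3) : i + 2 + 1 = i := by revert i; decide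

theorem a22 (i : Fin 3) : i + 2 + 2 = i + 1 := by revert i; decide

theorem three (i j : Fin 3) : j = i ∨ j = i + 1 ∨ j = i + 2 := by revert i j; decide

theorem cub_cyc (x : J) (i : Fin 3) : cub x = dg x i * dg x (i + 1) * dg x (i + 2) -
    dg x i * norm (sl x i) - dg x (i + 1) * norm (sl x (i + 1)) -
    dg x (i + 2) * norm (sl x (i + 2)) + bil (sl x i * sl x (i + 1) * sl x (i + 2)) 1 := by
  have h1 : bil (x.x2 * x.x3 * x.x1) 1 = bil (x.x1 * x.x2 * x.x3) 1 := by
    rw [← tri3, tri1]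
  have h2 : bil (x.x3 * x.x1 * x.x2) 1 = bil (x.x1 * x.x2 * x.x3) 1 := by
    rw [← tri3, tri2]
  fin_cases i
  · rfl
  · change cub x = x.d2 * x.d3 * x.d1 - x.d2 * norm x.x2 - x.d3 * norm x.x3 - x.d1 * norm x.x1 +
      bil (x.x2 * x.x3 * x.x1) 1
    rw [h1, cub]
    ring
  · change cub x = x.d3 * x.d1 * x.d2 - x.d3 * norm x.x3 - x.d1 * norm x.x1 - x.d2 * norm x.x2 +
      bil (x.x3 * x.x1 * x.x2) 1
    rw [h2, cub]
    ring

/-- The row `i`, multiplied by an octonion, is added to the row `j`. -/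
def tg (i j k : Fin 3) (a : O) (m : O → O) (x : J) : J :=
  jm (dg x + Pi.single j (bil a (sl x k) + norm a * dg x i))
    (sl x + Pi.single k (dg x i • a) + Pi.single i (m (sl x j)))

section tg

variable {i j k : Fin 3} {a : O} {m : O → O}

theorem dg_tg_j (x : J) : dg (tg i j k a m x) j = dg x j + (bil a (sl x k) + norm a * dg x i) := by
  rw [tg, dg_jm, Pi.add_apply, Pi.single_eq_same]

theorem dg_tg_ne {l : Fin 3} (h : l ≠ j) (x : J) : dg (tg i j k a m x) l = dg x l := by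
  rw [tg, dg_jm, Pi.add_apply, Pi.single_eq_of_ne h, add_zero]

theorem sl_tg_i (h : i ≠ k) (x : J) : sl (tg i j k a m x) i = sl x i + m (sl x j) := by
  rw [tg, sl_jm, Pi.add_apply, Pi.add_apply, Pi.single_eq_same, Pi.single_eq_of_ne h, add_zero]

theorem sl_tg_k (h : k ≠ i) (x : J) : sl (tg i j k a m x) k = sl x k + dg x i • a := by
  rw [tg, sl_jm, Pi.add_apply, Pi.add_apply, Pi.single_eq_same, Pi.single_eq_of_ne h, add_zero]

theorem sl_tg_ne {l : Fin 3} (h : l ≠ k) (h' : l ≠ i) (x : J) :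
    sl (tg i j k a m x) l = sl x l := by
  rw [tg, sl_jm, Pi.add_apply, Pi.add_apply, Pi.single_eq_of_ne h, Pi.single_eq_of_ne h',
    add_zero, add_zero]

theorem tg_lin (hik : i ≠ k) (hm : IsLinearMap Om m) : IsLinearMap Om (tg i j k a m) := by
  refine ⟨fun x y => j_ext (fun l => ?_) fun l => ?_, fun t x => j_ext (fun l => ?_) fun l => ?_⟩
  · rw [dg_add]
    by_cases h : l = j
    · subst h
      simp only [dg_tg_j, dg_add, sl_add, bil_add_right]
      ring
    · simp only [dg_tg_ne h, dg_add]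
  · rw [sl_add]
    by_cases h : l = k
    · subst h
      simp only [sl_tg_k hik.symm, dg_add, sl_add, add_smul]
      abel
    · by_cases h' : l = i
      · subst h'
        simp only [sl_tg_i hik, sl_add, hm.map_add]
        abel
      · simp only [sl_tg_ne h h', sl_add]
  · rw [dg_smul]
    by_cases h : l = j
    · subst h
      simp only [dg_tg_j, dg_smul, sl_smul, bil_smul_right]
      ring
    · simp only [dg_tg_ne h, dg_smul]
  · rw [sl_smul]
    by_cases h : l = k
    · subst h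
      simp only [sl_tg_k hik.symm, dg_smul, sl_smul, smul_add, mul_smul]
    · by_cases h' : l = i
      · subst h'
        simp only [sl_tg_i hik, sl_smul, hm.map_smul, smul_add]
      · simp only [sl_tg_ne h h', sl_smul]

theorem tg_tg (hij : i ≠ j) (hik : i ≠ k) (hjk : j ≠ k) {a' : O} {m' : O → O} (ha : a' = -a)
    (hm : ∀ y, m' y = -m y) (x : J) : tg i j k a' m' (tg i j k a m x) = x := by
  subst ha
  refine j_ext (fun l => ?_) fun l => ?_
  · by_cases h : l = j
    · subst h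
      rw [dg_tg_j, dg_tg_j, sl_tg_k hik.symm, dg_tg_ne hij, bil_neg_left, bil_add_right,
        bil_smul_right, bil_self, Oct.norm_neg]
      ring
    · rw [dg_tg_ne h, dg_tg_ne h]
  · by_cases h : l = k
    · subst h
      rw [sl_tg_k hik.symm, sl_tg_k hik.symm, dg_tg_ne hij, smul_neg, add_neg_cancel_right]
    · by_cases h' : l = i
      · subst h'
        rw [sl_tg_i hik, sl_tg_i hik, sl_tg_ne hjk hij.symm, hm, add_neg_cancel_right]
      · rw [sl_tg_ne h h', sl_tg_ne h h']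

theorem tg_ee (hm : m 0 = 0) {l : Fin 3} (h : i ≠ l) : tg i j k a m (ee l) = ee l := by
  have h1 : dg (ee l) i = 0 := by rw [dg_ee, if_neg h]
  rw [tg, h1, sl_ee, sl_ee, hm, bil_zero_right, mul_zero, add_zero, zero_smul, Pi.single_zero,
    Pi.single_zero, Pi.single_zero, add_zero, add_zero, add_zero, jm_dg_sl]

theorem exists_tg (hij : i ≠ j) (hik : i ≠ k) (hjk : j ≠ k) (hm : IsLinearMap Om m) :
    ∃ ψ : J ≃ₗ[Om] J, ∀ x, ψ x = tg i j k a m x := by
  have hm' : IsLinearMap Om fun y => -m y :=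
    ⟨fun x y => by rw [hm.map_add, neg_add], fun t x => by rw [hm.map_smul, smul_neg]⟩
  refine ⟨LinearEquiv.ofLinearMap ((tg_lin (j := j) (a := a) hik hm).mk' _)
    ((tg_lin (j := j) (a := -a) hik hm').mk' _) ?_ ?_, fun _ => rfl⟩
  · ext1 x
    exact tg_tg hij hik hjk (neg_neg a).symm (fun y => (neg_neg _).symm) x
  · ext1 x
    exact tg_tg hij hik hjk rfl (fun _ => rfl) x

end tg

theorem cub_tA (i : Fin 3) (a : O) (x : J) :
    cub (tg i (i + 1) (i + 2) a (fun y => star (y * a)) x) = cub x := by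
  rw [cub_cyc _ i, cub_cyc x i, dg_tg_j, dg_tg_ne (n1 i).symm, dg_tg_ne (n21 i),
    sl_tg_i (n2 i).symm, sl_tg_k (n2 i), sl_tg_ne (n21 i).symm (n1 i)]
  generalize dg x i = d0
  generalize dg x (i + 1) = d1
  generalize dg x (i + 2) = d2
  generalize sl x i = x0
  generalize sl x (i + 1) = x1
  generalize sl x (i + 2) = x2
  have h1 : star (x1 * a) * x1 = norm x1 • star a := by
    rw [star_mul]
    exact mul_star_mul' x1 (star a)
  have h2 : bil (star a * x2) 1 = bil a x2 := by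
    rw [bil_mul_left, star_star, mul_one, bil_comm]
  have h3 : bil (star a * a) 1 = 2 * norm a := by
    rw [bil_mul_left, star_star, mul_one, bil_self]
  rw [add_mul x0, h1, norm_add, norm_add, Oct.norm_star, Oct.norm_mul, Oct.norm_smul, tri1',
    bil_smul_right]
  simp only [add_mul, mul_add, mul_smul_oct, smul_mul_oct, bil_add_left, bil_smul_left, h2, h3]
  rw [bil_comm x2 a]
  ring

theorem cub_tB (i : Fin 3) (a : O) (x : J) :
    cub (tg i (i + 2) (i + 1) a (fun y => star (a * y)) x) = cub x := by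
  rw [cub_cyc _ i, cub_cyc x i, dg_tg_j, dg_tg_ne (n2 i).symm, dg_tg_ne (n21 i).symm,
    sl_tg_i (n1 i).symm, sl_tg_k (n1 i), sl_tg_ne (n21 i) (n2 i)]
  generalize dg x i = d0
  generalize dg x (i + 1) = d1
  generalize dg x (i + 2) = d2
  generalize sl x i = x0
  generalize sl x (i + 1) = x1
  generalize sl x (i + 2) = x2
  have h0 : ∀ u v w : O, bil (u * v * w) 1 = bil (w * u * v) 1 := fun u v w => by
    rw [← tri3, ← tri1']
    exact bil_comm _ _
  have h1 : x2 * star (a * x2) = norm x2 • star a := by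
    rw [star_mul]
    exact mul_star_mul x2 (star a)
  have h2 : bil (star a * x1) 1 = bil a x1 := by
    rw [bil_mul_left, star_star, mul_one, bil_comm]
  have h3 : bil (star a * a) 1 = 2 * norm a := by
    rw [bil_mul_left, star_star, mul_one, bil_self]
  rw [h0 (x0 + _), h0 x0, mul_add x2, h1, norm_add, norm_add, Oct.norm_star, Oct.norm_mul,
    Oct.norm_smul, tri1', h0 x0 a, bil_smul_right]
  simp only [add_mul, mul_add, mul_smul_oct, smul_mul_oct, bil_add_left, bil_smul_left, h2, h3]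
  rw [bil_comm x1 a]
  ring

theorem linA (a : O) : IsLinearMap Om fun y : O => star (y * a) :=
  ⟨fun x y => by rw [add_mul, star_add], fun t x => by rw [smul_mul_oct, star_smul_oct]⟩

theorem linB (a : O) : IsLinearMap Om fun y : O => star (a * y) :=
  ⟨fun x y => by rw [mul_add, star_add], fun t x => by rw [mul_smul_oct, star_smul_oct]⟩

/-- The row `i` is added to the row `i + 1`. -/
theorem exists_tA (i : Fin 3) (a : O) : ∃ ψ : J ≃ₗ[Om] J, (∀ x, cub (ψ x) = cub x) ∧
    (∀ l, i ≠ l → ψ (ee l) = ee l) ∧ ∀ x, dg (ψ x) i = dg x i ∧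
      dg (ψ x) (i + 1) = dg x (i + 1) + (bil a (sl x (i + 2)) + norm a * dg x i) ∧
      sl (ψ x) (i + 1) = sl x (i + 1) ∧ sl (ψ x) (i + 2) = sl x (i + 2) + dg x i • a := by
  obtain ⟨ψ, h⟩ := exists_tg (a := a) (n1 i).symm (n2 i).symm (n21 i).symm (linA a)
  refine ⟨ψ, fun x => by rw [h, cub_tA], fun l hl => by rw [h, tg_ee (linA a).map_zero hl],
    fun x => ?_⟩
  rw [h]
  exact ⟨dg_tg_ne (n1 i).symm x, dg_tg_j x, sl_tg_ne (n21 i).symm (n1 i) x, sl_tg_k (n2 i) x⟩

/-- The row `i` is added to the row `i + 2`. -/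
theorem exists_tB (i : Fin 3) (a : O) : ∃ ψ : J ≃ₗ[Om] J, (∀ x, cub (ψ x) = cub x) ∧
    (∀ l, i ≠ l → ψ (ee l) = ee l) ∧ ∀ x, dg (ψ x) i = dg x i ∧
      sl (ψ x) (i + 2) = sl x (i + 2) ∧ sl (ψ x) (i + 1) = sl x (i + 1) + dg x i • a ∧
      dg (ψ x) (i + 2) = dg x (i + 2) + (bil a (sl x (i + 1)) + norm a * dg x i) := by
  obtain ⟨ψ, h⟩ := exists_tg (a := a) (n2 i).symm (n1 i).symm (n21 i) (linB a)
  refine ⟨ψ, fun x => by rw [h, cub_tB], fun l hl => by rw [h, tg_ee (linB a).map_zero hl],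
    fun x => ?_⟩
  rw [h]
  exact ⟨dg_tg_ne (n2 i).symm x, sl_tg_ne (n21 i) (n2 i) x, sl_tg_k (n1 i) x, dg_tg_j x⟩

/-- A singular element with a nonzero diagonal entry is moved to the frame. -/
theorem pivot {x : J} (hx : adj x = 0) (i : Fin 3) (hi : dg x i ≠ 0) :
    ∃ ψ : J ≃ₗ[Om] J, (∀ y, cub (ψ y) = cub y) ∧ (∀ l, i ≠ l → ψ (ee l) = ee l) ∧
      ψ x = dg x i • ee i := by
  obtain ⟨φ, h1, h2, h3⟩ := exists_tA i (-(dg x i)⁻¹ • sl x (i + 2))
  obtain ⟨χ, k1, k2, k3⟩ := exists_tB i (-(dg x i)⁻¹ • sl x (i + 1))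
  have hc : ∀ y, cub ((φ.trans χ) y) = cub y := fun y => (k1 _).trans (h1 y)
  refine ⟨φ.trans χ, hc, fun l hl => ?_, ?_⟩
  · rw [LinearEquiv.trans_apply, h2 l hl, k2 l hl]
  · have hs : adj ((φ.trans χ) x) = 0 :=
      (sim_of_cub (l := 1) fun y => by rw [hc, one_mul]).sing.2 hx
    have e0 : dg ((φ.trans χ) x) i = dg x i := by
      rw [LinearEquiv.trans_apply, (k3 _).1, (h3 _).1]
    have e1 : sl ((φ.trans χ) x) (i + 1) = 0 := by
      rw [LinearEquiv.trans_apply, (k3 _).2.2.1, (h3 _).1, (h3 _).2.2.1, smul_smul, mul_neg,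
        mul_inv_cancel₀ hi, neg_one_smul, add_neg_cancel]
    have e2 : sl ((φ.trans χ) x) (i + 2) = 0 := by
      rw [LinearEquiv.trans_apply, (k3 _).2.1, (h3 _).2.2.2, smul_smul, mul_neg,
        mul_inv_cancel₀ hi, neg_one_smul, add_neg_cancel]
    generalize (φ.trans χ) x = y at hs e0 e1 e2
    have f0 := sl_adj y i
    have f1 := dg_adj y (i + 1)
    have f2 := dg_adj y (i + 2)
    rw [hs, sl_zero, e1, zero_mul, star_zero, zero_sub, e0] at f0
    rw [hs, dg_zero, e1, a11, a12, e0, Oct.norm_zero, sub_zero] at f1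
    rw [hs, dg_zero, e2, a21, a22, e0, Oct.norm_zero, sub_zero] at f2
    have g0 : sl y i = 0 := (smul_eq_zero.1 (neg_eq_zero.1 f0.symm)).resolve_left hi
    have g1 : dg y (i + 1) = 0 := (mul_eq_zero.1 f2.symm).resolve_left hi
    have g2 : dg y (i + 2) = 0 := (mul_eq_zero.1 f1.symm).resolve_right hi
    refine j_ext (fun l => ?_) fun l => ?_
    · rw [dg_smul, dg_ee]
      rcases three i l with rfl | rfl | rfl
      · rw [if_pos rfl, mul_one, e0]
      · rw [if_neg (n1 _), mul_zero, g1]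
      · rw [if_neg (n2 _), mul_zero, g2]
    · rw [sl_smul, sl_ee, smul_zero]
      rcases three i l with rfl | rfl | rfl
      · exact g0
      · exact e1
      · exact e2

end Vale.Agent.P011Z.Cl.Frmx

end
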